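import Vale.Agent.P237.Quant.TailData.N48.tailN48N1Part0
import Vale.Agent.P237.Quant.TailData.N48.tailN48N1Part1
import Vale.Agent.P237.Quant.TailData.N48.tailN48N1Part2
import Vale.Agent.P237.Quant.TailData.N48.tailN48N1Part3
import Vale.Agent.P237.Quant.TailData.N48.tailN48N1Part4

/-!
Tail calibration tailN48N1 in dimension 48. The check. Generated data, checked by the kernel.
-/

set_option maxRecDepth 100000
set_option linter.all false

namespace Vale.Agent.P237.Quant.TailData

open TailCert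


/-- The calibration. -/
noncomputable def tailN48N1 : Cfg :=
  tailN48N1Base.withIvals (List.flatten [tailN48N1L0, tailN48N1L1, tailN48N1L2, tailN48N1L3, tailN48N1L4, tailN48N1L5, tailN48N1L6, tailN48N1L7, tailN48N1L8, tailN48N1L9, tailN48N1L10, tailN48N1L11, tailN48N1L12, tailN48N1L13, tailN48N1L14, tailN48N1L15, tailN48N1L16, tailN48N1L17, tailN48N1L18])

theorem tailN48N1_parts : [tailN48N1L0, tailN48N1L1, tailN48N1L2, tailN48N1L3, tailN48N1L4, tailN48N1L5, tailN48N1L6, tailN48N1L7, tailN48N1L8, tailN48N1L9, tailN48N1L10, tailN48N1L11, tailN48N1L12, tailN48N1L13, tailN48N1L14, tailN48N1L15, tailN48N1L16, tailN48N1L17, tailN48N1L18].Forall fun l => tailN48N1Base.partUsed tailN48N1Used l = true := by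
  simp only [List.forall_cons, List.Forall]
  exact ⟨tailN48N1L0_ok, tailN48N1L1_ok, tailN48N1L2_ok, tailN48N1L3_ok, tailN48N1L4_ok, tailN48N1L5_ok, tailN48N1L6_ok, tailN48N1L7_ok, tailN48N1L8_ok, tailN48N1L9_ok, tailN48N1L10_ok, tailN48N1L11_ok, tailN48N1L12_ok, tailN48N1L13_ok, tailN48N1L14_ok, tailN48N1L15_ok, tailN48N1L16_ok, tailN48N1L17_ok, tailN48N1L18_ok⟩

theorem tailN48N1_check : tailN48N1.check = true :=
  Cfg.check_of_parts (by decide +kernel) tailN48N1_parts

end Vale.Agent.P237.Quant.TailData
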